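import Vale.Agent.P221Y98.St
import Vale.Agent.P221.St.IntA
import Vale.Agent.P257.H80.HazIff
import Vale.Agent.P257.H80.HazWt

/-!
# P221: comparison of the statement layer with the older one
-/

open CategoryTheory MonoidalCategory Limits

noncomputable section

namespace Vale.Agent.P221Y98.L

open P251.St (SHCat Susp SuspData Space Map Space.pt Pn)
open P251.St.SHCat

variable {T : SHCat} {S : Susp T}

/-- the old form of a ring spectrum -/
abbrev RingSp.toOld (R : RingSp T) : P251.St.RingSp T := ⟨R.obj⟩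

/-- the new form of a ring spectrum -/
abbrev RingSp.ofOld (R : P251.St.RingSp T) : RingSp T := ⟨R.obj⟩

variable {R R' : RingSp T}

/-- the old form of an orientation -/
def Oriented.toOld (o : Oriented S.1 R) : P251.St.Oriented S R.toOld where
  θ := o.θ
  isom := o.isom
  sum f hf g hg := (o.sum f g hf hg).w
  fibre n f hf := (o.fibre n f hf).trans (tensorHom_id _ _).symm

/-- the new form of an orientation -/
def Oriented.ofOld (o : P251.St.Oriented S R.toOld) : Oriented S.1 R where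
  θ := o.θ
  isom := o.isom
  sum f g hf hg := ⟨o.sum f hf g hg⟩
  fibre n f hf := (o.fibre n f hf).trans (tensorHom_id _ _)

theorem isScale_iff {r k : ℕ} {Y : Space} (c : PiR S.1 R k) (u : Coh S.1 R (r + k) Y)
    (w : Coh S.1 R r Y) :
    IsScale c u w ↔ P257.St.IsScale (S := S) (R := R.toOld) c u w := by
  refine forall_congr' fun g => imp_congr Iff.rfl ⟨fun h => ?_, fun h => ⟨?_⟩⟩
  · simpa only [Category.assoc] using h.w
  · simpa only [Category.assoc] using h

theorem law_iff (o : Oriented S.1 R) (a : ∀ k : ℕ, ℕ → PiR S.1 R k) :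
    (∀ N, LawOn o a N (Fin (N + 1))) ↔ P257.St.IsLaw o.toOld a := by
  refine forall_congr' fun N => forall_congr' fun t => forall_congr' fun e => imp_congr Iff.rfl <|
    imp_congr (forall_congr' fun k => forall_congr' fun i => ?_) <|
      exists_congr fun _ => and_congr (forall_congr' fun _ =>
      imp_congr Iff.rfl <| forall_congr' fun _ => imp_congr Iff.rfl (isScale_iff _ _ _)) Iff.rfl
  have h : (fun (x : (PP (Fin (N + 1))).carrier) (b c : Fin (1 + k) × Fin (N + 1)) =>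
      if b.1 = c.1 then mat (if b.1.1 < i then x.1 else x.2) b.2 c.2 else 0) =
      fun x b c => if b.1 = c.1 then (if (b.1 : ℕ) < i then mat x.1 b.2 c.2 else mat x.2 b.2 c.2)
        else 0 := by
    funext x b c
    split_ifs <;> rfl
  rw [h]
  exact Iff.rfl

theorem isHaz_iff {p : ℕ} (hp : p ≠ 0) (F : MvPowerSeries (Fin 2) (MvPolynomial ℕ ℤ)) :
    IsHaz p F ↔ P257.St.IsHaz p F := by
  have hp' : (p : ℚ) ≠ 0 := by exact_mod_cast hp
  have h1 : ∀ y : MvPolynomial ℕ ℚ,
      (p : MvPolynomial ℕ ℚ) * (MvPolynomial.C (1 / (p : ℚ)) * y) = y := by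
    intro y
    rw [← mul_assoc, ← map_natCast (MvPolynomial.C : ℚ →+* MvPolynomial ℕ ℚ), ← map_mul,
      mul_one_div_cancel hp', map_one, one_mul]
  have h2 : ∀ n, (p : MvPolynomial ℕ ℚ) * P257.H80.ell p (n + 1) = ∑ i ∈ Finset.range (n + 1),
      P257.H80.ell p i * MvPolynomial.X (n - i) ^ p ^ i := by
    intro n
    rw [P257.H80.ell, h1, Finset.sum_range]
  constructor
  · rintro ⟨h0, l, L, l0, hl, rfl, h⟩
    have h3 : ∀ n, l n = P257.H80.ell p n := by
      intro n
      induction n using Nat.strong_induction_on with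
      | _ n ih =>
        rcases n with _ | n
        · rw [l0, P257.H80.ell]
        · have h4 : (p : MvPolynomial ℕ ℚ) * l (n + 1) = p * P257.H80.ell p (n + 1) := by
            rw [hl, h2]
            exact Finset.sum_congr rfl fun i hi => by rw [ih i (Finset.mem_range.1 hi)]
          have h5 : (p : MvPolynomial ℕ ℚ) ≠ 0 := by exact_mod_cast hp
          exact mul_left_cancel₀ h5 h4
    obtain rfl : l = P257.H80.ell p := funext h3
    exact ⟨h0, h⟩
  · intro h
    exact ⟨h.zero, P257.H80.ell p, P257.H80.hazLog p, by rw [P257.H80.ell], h2, rfl, h.log⟩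

variable {p : ℕ}

/-- additivity -/
def GMap.Add (φ : GMap S.1 R) : Prop :=
  ∀ n m (x : ℕ → _), φ n (∑ i ∈ Finset.range m, x i) = hsum m fun i => φ n (x i)

theorem GMap.Add.add {φ : GMap S.1 R} (h : φ.Add) (n : ℕ) (x y : MvPolynomial ℕ ℤ) :
    φ n (x + y) = φ n x + φ n y := by
  have h1 := h n 2 (fun i => if i = 0 then x else y)
  simpa [Finset.sum_range_succ, hsum] using h1

/-- the old form of a family of homomorphisms -/
def GMap.toOld (p : ℕ) (φ : GMap S.1 R) (h : φ.Add) : P257.St.GHom S p R.toOld :=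
  fun n => AddMonoidHom.mk' (fun x => φ n x.1) fun x y => h.add n x.1 y.1

theorem GMap.toOld_val (φ : GMap S.1 R) (h : φ.Add) {n : ℕ} (x : P257.St.VPoly p n) :
    (φ.toOld p h).val x = φ n x.1 := rfl

/-- the homogeneous component -/
def cpt (p n : ℕ) : MvPolynomial ℕ ℤ →+ P257.St.VPoly p n :=
  AddMonoidHom.mk' (fun x => ⟨MvPolynomial.weightedHomogeneousComponent
    (fun i : ℕ => p ^ (i + 1) - 1) n x,
    MvPolynomial.weightedHomogeneousComponent_isWeightedHomogeneous n x⟩)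
    fun x y => Subtype.ext (map_add _ x y)

theorem cpt_of {n : ℕ} {x : MvPolynomial ℕ ℤ} (h : Hg p n x) : cpt p n x = ⟨x, h⟩ :=
  Subtype.ext (MvPolynomial.IsWeightedHomogeneous.weightedHomogeneousComponent_same h)

/-- the new form of a family of homomorphisms -/
def GMap.ofOld (φ : P257.St.GHom S p R.toOld) : GMap S.1 R := fun n x => φ.val (cpt p n x)

theorem GMap.ofOld_of (φ : P257.St.GHom S p R.toOld) {n : ℕ} {x : MvPolynomial ℕ ℤ}
    (h : Hg p n x) : GMap.ofOld φ n x = φ.val ⟨x, h⟩ := by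
  rw [GMap.ofOld, cpt_of h]

theorem hg_one : Hg p 0 1 := MvPolynomial.isWeightedHomogeneous_one _ _

theorem hg_coeff [hp : Fact p.Prime] {F : MvPowerSeries (Fin 2) (MvPolynomial ℕ ℤ)}
    (h : P257.St.IsHaz p F) {k i : ℕ} (hi : i < k + 2) :
    Hg p k (F.coeff (.single 0 i + .single 1 (k + 1 - i))) := by
  rw [(P257.H80.isHaz_iff p F).1 h]
  refine P257.H80.haz_homog p ?_
  rw [map_add, Finsupp.degree_single, Finsupp.degree_single]
  omega

theorem isLaw_congr {o : P251.St.Oriented S R.toOld} {a a' : ∀ k : ℕ, ℕ → PiR S.1 R k}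
    (h : ∀ k, ∀ i < k + 2, a k i = a' k i) (H : P257.St.IsLaw o a) : P257.St.IsLaw o a' := by
  intro N t e ht he
  obtain ⟨w, h1, h2⟩ := H N t e ht he
  exact ⟨w, fun k hk i hi => h k i hi ▸ h1 k hk i hi, h2⟩

variable [hp : Fact p.Prime]

theorem IsPTyp.toOld {o : Oriented S.1 R} {φ : GMap S.1 R} (h : IsPTyp p o φ) :
    P257.St.IsPTyp p o.toOld (φ.toOld p h.add) := by
  obtain ⟨F, h1, h2⟩ := h.law
  have h3 := (isHaz_iff hp.out.ne_zero F).1 h1
  refine ⟨h.isLocal, fun a j ha hj => ?_, fun n m x y z e g hg => ?_, F, _, h3,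
    (law_iff _ _).1 h2, fun k i hi => ⟨⟨_, hg_coeff h3 hi⟩, rfl, rfl⟩⟩
  · have h4 := h.one j hj
    rw [← ha] at h4
    exact h4
  · have h4 := (h.mul n m x.1 y.1 g x.2 y.2 hg).w
    rw [← e] at h4
    simp only [Category.assoc] at h4
    exact h4

theorem IsPTyp.ofOld {o : P251.St.Oriented S R.toOld} {φ : P257.St.GHom S p R.toOld}
    (h : P257.St.IsPTyp p o φ) : IsPTyp p (Oriented.ofOld o) (GMap.ofOld φ) := by
  obtain ⟨F, a, h1, h2, h3⟩ := h.law
  refine ⟨h.isLocal, fun n m x => ?_, fun j hj => ?_, fun n m x y g hx hy hg => ⟨?_⟩, F,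
    (isHaz_iff hp.out.ne_zero F).2 h1, (law_iff _ _).2 (isLaw_congr (fun k i hi => ?_) h2)⟩
  · exact map_sum ((φ n).comp (cpt p n)) x _
  · rw [GMap.ofOld_of φ hg_one]
    exact h.one _ j rfl hj
  · have hxy : Hg p (n + m) (x * y) := MvPolynomial.IsWeightedHomogeneous.mul hx hy
    rw [GMap.ofOld_of φ hx, GMap.ofOld_of φ hy, GMap.ofOld_of φ hxy]
    simpa only [Category.assoc] using h.mul n m ⟨x, hx⟩ ⟨y, hy⟩ ⟨_, hxy⟩ rfl g hg
  · obtain ⟨x, hx, hx'⟩ := h3 k i hi
    rw [hx', ← hx, GMap.ofOld_of φ x.2]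

omit hp in
theorem orMap_iff (o : Oriented S.1 R) (o' : Oriented S.1 R') (f : Hom R.obj R'.obj) :
    OrMap o o' f ↔ P257.St.IsRingMap (R := R.toOld) (R' := R'.toOld) f ∧
      P257.St.Carries (R := R.toOld) (R' := R'.toOld) f o.toOld o'.toOld := by
  constructor
  · rintro ⟨h1, h2, h3⟩
    refine ⟨⟨h1, h2.w⟩, fun n A _ => ?_⟩
    simp only [tensorHom_id]
    exact h3 n A
  · rintro ⟨⟨h1, h2⟩, h3⟩
    refine ⟨h1, ⟨h2⟩, fun n A _ => ?_⟩
    have := h3 n A
    simp only [tensorHom_id] at this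
    exact this

theorem IsBP.toOld {o : Oriented S.1 R} {φ : GMap S.1 R} (h : IsBP p o φ) :
    P257.St.IsBrownPeterson p o.toOld (φ.toOld p h.1.add) :=
  ⟨h.1.toOld, fun B o' φ' h' => (existsUnique_congr fun f => orMap_iff _ _ f).1
    (h.2 (RingSp.ofOld B) (Oriented.ofOld o') (GMap.ofOld φ') (IsPTyp.ofOld h'))⟩

theorem IsBP.ofOld {o : P251.St.Oriented S R.toOld} {φ : P257.St.GHom S p R.toOld}
    (h : P257.St.IsBrownPeterson p o φ) : IsBP p (Oriented.ofOld o) (GMap.ofOld φ) :=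
  ⟨.ofOld h.typ, fun B o' _ h' => (existsUnique_congr fun f => orMap_iff _ _ f).2
    (h.univ B.toOld o'.toOld _ h'.toOld)⟩

omit hp in
theorem isQuotient_iff {n : ℕ} (x : ∀ j, PiR S.1 R (p ^ j - 1)) {C : T.C}
    (a : Hom (ten R.obj C) C) (q : Hom R.obj C) :
    IsQuotient n x a q ↔ P221.StI.IsQuotient (S := S) (R := R.toOld) n x a q := by
  have h1 : comp (tenR R.unit C) a = leftUnit C ↔
      comp (P257.St.leftInv C) (comp (P257.St.tenR R.unit C) a) = ident C := by
    change _ ↔ (λ_ C).inv ≫ _ = 𝟙 C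
    rw [Iso.inv_comp_eq, Category.comp_id]
  have h2 : ∀ k (u : Pi k R.obj), (∃ (N : ℕ) (b : ∀ j, Pi k (ten _ (Sn S.1 (p ^ j - 1)))),
      (∀ j ≤ n, b j = nul _ _) ∧ u = hsum N fun j => comp (b j) (mulBy (x j))) ↔
      ∃ (N : ℕ) (b : ∀ j : ℕ, Pi k (ten R.obj (Sn S.1 (p ^ j - 1)))),
        u = ∑ j ∈ Finset.Ioc n N, comp (b j) (P221.StI.mulBy (S := S) (R := R.toOld) (x j)) := by
    intro k u
    have h3 : ∀ j, P221.StI.mulBy (S := S) (R := R.toOld) (x j) = mulBy (x j) := fun j => by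
      change (𝟙 _ ⊗ₘ x j) ≫ _ = _
      rw [id_tensorHom]
    simp only [h3]
    constructor
    · rintro ⟨N, b, hb, rfl⟩
      refine ⟨N - 1, b, (Finset.sum_subset (fun j hj => ?_) fun j hj hj' => ?_).symm⟩
      · rw [Finset.mem_Ioc] at hj
        rw [Finset.mem_range]
        omega
      · rw [Finset.mem_range] at hj
        rw [Finset.mem_Ioc] at hj'
        rw [hb j (by omega)]
        exact zero_comp
    · rintro ⟨N, b, rfl⟩
      refine ⟨N + 1, fun j => if n < j then b j else 0, fun j hj => if_neg (by omega), ?_⟩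
      refine Finset.sum_subset_zero_on_sdiff (fun j hj => ?_) (fun j hj => ?_) fun j hj => ?_
      · rw [Finset.mem_Ioc] at hj
        rw [Finset.mem_range]
        omega
      · rw [Finset.mem_sdiff, Finset.mem_range, Finset.mem_Ioc] at hj
        beta_reduce
        rw [if_neg (by omega)]
        exact zero_comp
      · rw [Finset.mem_Ioc] at hj
        beta_reduce
        rw [if_pos hj.1]
  constructor
  · intro h
    exact ⟨⟨h1.1 h.unit, by simpa only [Category.assoc] using h.assoc.w⟩, h.map.w, h.surj,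
      fun k u => (h.ker k u).trans (h2 k u)⟩
  · intro h
    exact ⟨h1.2 h.act.1, ⟨by simpa only [Category.assoc] using h.act.2⟩, ⟨h.map⟩, h.surj,
      fun k u => (h.ker k u).trans (h2 k u).symm⟩

theorem isStd_iff (n : ℕ) (B : T.C) : IsStd S.1 p n B ↔ P221.StI.IsStandardForm S p n B := by
  constructor
  · rintro ⟨P, o, φ, x, C, a, q, c, h1, h2, h3, h4⟩
    refine ⟨P.toOld, o.toOld, _, x, C, a, q, c, h1.toOld, fun j hj => ?_,
      (isQuotient_iff x a q).1 h3, h4⟩
    obtain ⟨m, w, hm, hw, h5, h6⟩ := h2 j hj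
    exact ⟨m, ⟨w, hw⟩, hm, h5, h6⟩
  · rintro ⟨P, o, φ, x, C, a, q, c, h1, h2, h3, h4⟩
    refine ⟨RingSp.ofOld P, Oriented.ofOld o, _, x, C, a, q, c, IsBP.ofOld h1, fun j hj => ?_,
      (isQuotient_iff (R := RingSp.ofOld P) x a q).2 h3, h4⟩
    obtain ⟨m, w, hm, h5, h6⟩ := h2 j hj
    exact ⟨m, w.1, hm, w.2, h5, h6.trans (GMap.ofOld_of (R := RingSp.ofOld P) φ w.2).symm⟩

omit hp in
theorem finSp_of {X : T.C} (h : P257.St.FinSp X) : FinSp X := by
  induction h with
  | zero h => exact .zero h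
  | cell d _ ih => exact .cell d ih

omit hp in
theorem finLoc_of {V : T.C} (h0 : ¬ Triv V) (h : P257.St.FinPLocal p V) : FinLoc p V := by
  obtain ⟨F, Y, l, i, r, h1, h2, h3⟩ := h
  exact ⟨h0, F, Y, l, i, r, finSp_of h1, h2, h3⟩

end Vale.Agent.P221Y98.L
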