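import Vale.Agent.P221Y98.Mor
import Vale.Agent.P221X.Fin.Full
import Vale.Agent.P257EJ.BP

/-!
# P221: the counterexample, for the definitions of the problem
-/

open CategoryTheory MonoidalCategory Limits Pretriangulated

set_option linter.unusedSectionVars false

noncomputable section

namespace Vale.Agent.P221Y98

open Vale.Agent.P251 Vale.Agent.P221 Vale.Agent.P221X
open P251.St (SHCat Susp)
open P221.StI (ThickOf)
open L

variable {T : SHCat} {S : Susp T} {p : ℕ}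

theorem pComplete_of_thickOf {B X : T.C} (hB : PComplete p B)
    (h : ThickOf (fun Y => Y = B) X) : PComplete p X := by
  induction h with
  | base h => exact h ▸ hB
  | zero h => exact H395.PComplete.of_isZero ((IsZero.iff_id_eq_zero _).2 h)
  | susp k _ ih => exact H395.PComplete.shift ih k
  | cof hd _ _ h1 h2 => exact H395.PComplete.ext₃ _ hd h1 h2
  | retract i r hir _ ih => exact H395.PComplete.of_retract ih i r hir

theorem thickOf_iso {Q : T.C → Prop} {X Y : T.C} (e : X ≅ Y) (h : ThickOf Q X) : ThickOf Q Y :=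
  .retract e.inv e.hom e.inv_hom_id h

theorem thickOf_obj₃ {Q : T.C → Prop} (Δ : Triangle T.C) (hΔ : Δ ∈ distTriang T.C)
    (h1 : ThickOf Q Δ.obj₁) (h2 : ThickOf Q Δ.obj₂) : ThickOf Q Δ.obj₃ :=
  .cof (f := Δ.mor₁) (g := Δ.mor₂) (h := Δ.mor₃) hΔ h1 h2

theorem thickOf_obj₂ {Q : T.C → Prop} (Δ : Triangle T.C) (hΔ : Δ ∈ distTriang T.C)
    (h1 : ThickOf Q Δ.obj₁) (h3 : ThickOf Q Δ.obj₃) : ThickOf Q Δ.obj₂ :=
  thickOf_obj₃ _ (inv_rot_of_distTriang _ hΔ) (.susp (-1) h3) h1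

theorem thickOf_obj₁ {Q : T.C → Prop} (Δ : Triangle T.C) (hΔ : Δ ∈ distTriang T.C)
    (h2 : ThickOf Q Δ.obj₂) (h3 : ThickOf Q Δ.obj₃) : ThickOf Q Δ.obj₁ :=
  thickOf_obj₂ _ (inv_rot_of_distTriang _ hΔ) (.susp (-1) h3) h2

theorem isThick_thickOf {B : T.C} (hB : PComplete p B) :
    IsThick p (ThickOf (fun Y => Y = B)) where
  complete _ h := pComplete_of_thickOf hB h
  equiv _ _ f _ h := thickOf_iso (asIso f) h
  zero _ h := .zero h
  sum X Y hX hY := thickOf_obj₂ _ (binaryBiproductTriangle_distinguished X Y) hX hY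
  shift k _ h := .susp k h
  cof _ _ _ _ _ _ hd := ⟨thickOf_obj₃ _ hd, thickOf_obj₂ _ hd, thickOf_obj₁ _ hd⟩
  retract _ _ i r hir h := .retract i r hir h

theorem thickOf_of_thick {B X : T.C} (hB : PComplete p B) (h : Thick p B X) :
    ThickOf (fun Y => Y = B) X :=
  h _ (isThick_thickOf hB) (ThickOf.base rfl)

theorem pComplete_of_std {n : ℕ} {B : T.C} (h : IsStd S.1 p n B) : PComplete p B := by
  obtain ⟨_, _, _, _, _, _, _, _, -, -, -, h⟩ := h
  exact h.1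

theorem finTotal_of_out {b V X : T.C} (h : Out p b V X) : FinTotal (V ⊗ X) := by
  obtain ⟨N, hN⟩ := h.bdd
  refine ⟨(Set.finite_Icc (-N) N).subset fun k hk => ?_, fun k => ?_⟩
  · by_contra hk'
    refine hk fun y => ?_
    have h1 : N < |k| := by
      rw [Set.mem_Icc, ← abs_le] at hk'
      exact not_le.1 hk'
    have h2 := hN k h1 (y ≫ (β_ V X).hom)
    exact (cancel_mono (β_ V X).hom).1 (h2.trans zero_comp.symm)
  · have := h.fin k
    exact Finite.of_injective (fun y : Pi k (V ⊗ X) => y ≫ (β_ V X).hom)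
      fun y z hyz => (cancel_mono (β_ V X).hom).1 hyz

/-- **The counterexample.** -/
theorem counterexample (S : Susp T) (hp : p.Prime) (h5 : 5 ≤ p) :
    (∃ K, IsMorava S.1 p K) ∧ (∃ B, IsStd S.1 p 2 B) ∧
      ∃ X, (∀ K, IsMorava S.1 p K → FpType K p 2 X) ∧ ∀ B, IsStd S.1 p 2 B → ¬ Thick p B X := by
  have : Fact p.Prime := ⟨hp⟩
  obtain ⟨P, o, φ, hP⟩ := P257.H702.exists_isBrownPeterson S p
  obtain ⟨C, a, q, hq⟩ := EXI.Close.rowSTD S h5 P o φ hP
  obtain ⟨D, hD, hA, ⟨U⟩⟩ := H924.exists_mu S.toSpaceFunctor (M.lineIso S.toSpaceFunctor)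
  obtain ⟨W⟩ := TD.exists_twr D h5
  obtain ⟨F, _, _, _, G, R, _, _, Sr, Rf, AA, _, _, A₀, hF, hX, ⟨E⟩⟩ :=
    TC.rowTOPC h5 D hD hA U W P o φ C a q hP hq
  obtain ⟨A⟩ := RIG.algAll Sr h5 hX
  obtain ⟨X, hO⟩ := rowTOPB p F G R Sr Rf AA A₀ _ W.V2 h5 hF (hasCov T S) W.fin2 A E
  obtain ⟨B₀, c, hB₀, hc⟩ := Fin.exists_std hp hP hq W.distM
  obtain ⟨k, hk⟩ := hO.pow
  refine ⟨exists_family (by omega) hD U, ⟨B₀, (isStd_iff 2 B₀).2 hB₀⟩, X, fun K hK => ?_,
    fun B h1 h2 => hO.not_thick ?_⟩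
  · have hV := hasType_V2 W U hK
    exact ⟨⟨⟨0, hO.conn⟩, Fin.pComplete_of_pow hk, W.V2, hV.1, finTotal_of_out hO⟩,
      W.V2, hV, finTotal_of_out hO⟩
  · exact Fin.thick_of_completion W.distM c hk
      ((Fin.nm_of_thickOf (thickOf_of_thick (pComplete_of_std h1) h2)).trans
        (Fin.thick_std hB₀ ((isStd_iff 2 B).1 h1)))

theorem polyCoef (hp : p.Prime) (P : RingSp T) (o : Oriented S.1 P) (φ : GMap S.1 P)
    (h : IsBP p o φ) : PolyCoef p φ := by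
  have : Fact p.Prime := ⟨hp⟩
  obtain ⟨h1, h2, h3⟩ := P257EJ.coef h.toOld
  refine ⟨fun k hk y => h1 k y hk, fun k => ⟨fun x hx h0 => congrArg Subtype.val (h3 k ⟨x, hx⟩ h0),
    fun y => ?_⟩⟩
  obtain ⟨m, x, hm, h4⟩ := h2 k y
  exact ⟨m, x.1, hm, x.2, trivial, h4⟩

theorem not_hahnWilson (S : Susp T) : ¬ HahnWilson S.1 := by
  intro h
  obtain ⟨⟨K, hK⟩, ⟨B, hB⟩, X, h1, h2⟩ := counterexample S (p := 5) (by norm_num) le_rfl
  exact h2 B hB ((h 5 (by norm_num) K hK 2 B hB X).1 (h1 K hK))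

end Vale.Agent.P221Y98
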