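import Vale.Agent.P221Y98.Br
import Vale.Agent.P221X.TD.TwrSt
import Vale.Agent.P251.Z.CompA
import Vale.Agent.P251.X.PiInv
import Vale.Agent.P251.X.KExists
import Vale.Agent.P251.St.OfChrom

/-!
# P221: the Morava `K`-theories exist, and the Smith-Toda complex `V(2)` has type three
-/

open CategoryTheory MonoidalCategory Limits Pretriangulated MonObj

set_option linter.unusedSectionVars false

universe u

noncomputable section

namespace Vale.Agent.P221Y98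

open Vale.Agent.P251 Vale.Agent.P251.T Vale.Agent.P251.M Vale.Agent.P251.S Vale.Agent.P251.F
  Vale.Agent.P251.I Vale.Agent.P257.H314 Vale.Agent.P257.H702 Vale.Agent.P221X.TD

section lib

variable {T : Type u} [Category.{0} T] [Preadditive T] [HasZeroObject T] [HasShift T ℤ]
  [∀ n : ℤ, (shiftFunctor T n).Additive] [Pretriangulated T] [IsTriangulated T]
  [MonoidalCategory T] [SymmetricCategory T] [TensorTriangulated T] [MonoidalClosed T]
  [HasCoproducts.{0} T] [HasProducts.{0} T] [StableCat T]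

theorem whiskerLeft_zsmul_id (K X : T) (m : ℤ) : K ◁ (m • 𝟙 X) = m • 𝟙 (K ⊗ X) := by
  have h2 : (tensorLeft K).map (m • 𝟙 X) = m • (tensorLeft K).map (𝟙 X) := Functor.map_zsmul _
  change (tensorLeft K).map (m • 𝟙 X) = _
  rw [h2, CategoryTheory.Functor.map_id]
  rfl

theorem isIso_of_eq {K : T} [MonObj K] [IsCommMonObj K] {a b : ℤ} (hab : a = b)
    {x : (stdEven T).S a ⟶ K} {y : (stdEven T).S b ⟶ K}
    (h : HRing.of (stdEven T) K a x = HRing.of (stdEven T) K b y)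
    (hy : IsIso (K ◁ y ≫ μ[K])) : IsIso (K ◁ x ≫ μ[K]) := by
  subst hab
  obtain rfl : x = y := Z.hring_of_injective _ K a h
  exact hy

theorem zsmul_id_eq {K : T} [MonObj K] (m : ℤ) :
    m • 𝟙 K = (ρ_ K).inv ≫ K ◁ (m • η[K]) ≫ μ[K] := by
  have h2 : (tensorLeft K).map (m • η[K]) = m • (tensorLeft K).map η[K] := Functor.map_zsmul _
  have h3 : K ◁ (m • η[K]) = m • K ◁ η[K] := h2
  rw [h3, Preadditive.zsmul_comp, MonObj.mul_one, Preadditive.comp_zsmul, Iso.inv_hom_id]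

theorem zsmul_id_zero {K : T} [MonObj K] {m : ℤ} (h : m • η[K] = 0) : m • 𝟙 K = 0 := by
  have h2 : K ◁ (0 : 𝟙_ T ⟶ K) = 0 := (tensorLeft K).map_zero _ _
  rw [zsmul_id_eq, h, h2, zero_comp, comp_zero]

theorem isIso_zsmul {K : T} [MonObj K] {m : ℤ} (f : 𝟙_ T ⟶ K) (hf : m • f = η[K]) :
    IsIso (m • 𝟙 K) := by
  have h1 : m • ((ρ_ K).inv ≫ K ◁ f ≫ μ[K]) = 𝟙 K := by
    have h2 : (tensorLeft K).map (m • f) = m • (tensorLeft K).map f := Functor.map_zsmul _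
    have h3 : K ◁ η[K] = m • K ◁ f := by rw [← hf]; exact h2
    rw [← Preadditive.comp_zsmul, ← Preadditive.zsmul_comp, ← h3, MonObj.mul_one, Iso.inv_hom_id]
  refine ⟨(ρ_ K).inv ≫ K ◁ f ≫ μ[K], ?_, ?_⟩
  · rw [Preadditive.zsmul_comp, Category.id_comp, h1]
  · rw [Preadditive.comp_zsmul, Category.comp_id, h1]

variable {F : SpaceFunctor T} {D : MUData T} {p : ℕ} [hp : Fact p.Prime]

/-- the classes `v_i` on a Morava `K`-theory -/
theorem exists_u (H : MUUniv (M.lineIso F) D) {n : ℕ} {K : T} [MonObj K] [IsCommMonObj K]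
    (o : Z.Oriented F K) (hK : Z.IsMoravaPos F p n o) :
    ∃ (u : D.R ⟶ K) (_ : IsMonHom u), (∀ i < n, vv p i (X.lawOf u) = 0) ∧
      IsIso (K ◁ (D.vel p n ≫ u) ≫ μ[K]) := by
  have h1 : 1 < p := hp.out.one_lt
  obtain ⟨N, hN⟩ : ∃ N, N + 1 = p ^ n :=
    ⟨p ^ n - 1, Nat.sub_add_cancel (Nat.one_le_pow _ _ (by omega))⟩
  obtain ⟨u, hu, v, w, hw, h2, h3⟩ := Z.exists_hom_of_morava H h1 o hK N hN
  refine ⟨u, hu, h2, ?_⟩
  have h4 : HRing.of (stdEven T) K _ (D.vel p n ≫ u) =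
      HRing.of (stdEven T) K N (inv (Z.sph (M.lineIso F) N) ≫ v) :=
    (X.vv_lawOf u p n).symm.trans h3
  refine isIso_of_eq ?_ h4 ?_
  · have : ((N : ℤ) + 1) = (p : ℤ) ^ n := by exact_mod_cast hN
    omega
  · have := St.isIso_actV (St.braiding_SC F N) w v hw
    rw [MonoidalCategory.whiskerLeft_comp, Category.assoc]
    infer_instance

/-- a `p`-typical map to a Morava `K`-theory -/
theorem exists_typ (H : MUUniv (M.lineIso F) D) {n : ℕ} {K : T} [MonObj K] [IsCommMonObj K]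
    (o : Z.Oriented F K) (hK : Z.IsMoravaPos F p (n + 1) o) (hl : P257.H80.LocO p K) :
    ∃ (u : D.R ⟶ K) (_ : IsMonHom u) (Φ : MvPolynomial ℕ ℤ →+* HRing (stdEven T) K),
      P257.H80.lawOf u = (P257.H80.haz p).map Φ ∧
      Φ (MvPolynomial.X n) = HRing.of (stdEven T) K _ (D.vel p (n + 1) ≫ u) ∧
      IsIso (K ◁ (D.vel p (n + 1) ≫ u) ≫ μ[K]) := by
  obtain ⟨u, hu, h0, h1⟩ := exists_u H o hK
  refine ⟨P257.H80.typM H hl u, inferInstance, _, P257.H80.lawOf_typM H hl u, ?_, ?_⟩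
  · have h2 := P257.H80.vv_haz_sub_mem p
      (P257.H80.vS p (P257.H80.typ p (P257.H80.pLoc_of_locO hl) (P257.H80.lawOf u))) n
    rw [← P257.H80.Ih_haz, ← P257.H80.lawOf_typM H hl u] at h2
    have h3 : Ih p (n + 1) (P257.H80.lawOf (P257.H80.typM H hl u)) = ⊥ := by
      unfold Ih
      rw [Ideal.span_eq_bot]
      rintro x ⟨i, hi, rfl⟩
      exact X.vv_lawOf_lt u _ h0 hi
    rw [h3, Ideal.mem_bot, sub_eq_zero] at h2
    rw [← h2]
    exact X.vv_lawOf _ p (n + 1)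
  · rw [← X.vel_comp_eq u _ h0]
    exact h1

theorem mono_of_zero {K X Y Z' : T} {f : X ⟶ Y} {g : Y ⟶ Z'} {h : Z' ⟶ X⟦(1 : ℤ)⟧}
    (hd : Triangle.mk f g h ∈ distTriang T) (h0 : K ◁ f = 0) : Mono (K ◁ g) :=
  (Triangle.mor₁_eq_zero_iff_mono₂ _ ((tensorLeft K).map_distinguished _ hd)).1 h0

variable (W : Twr D p)

theorem zero_rat {K : T} (h : IsIso ((p : ℤ) • 𝟙 K)) : IsZero (K ⊗ W.V2) := by
  refine W.zero2_of_zero1 (W.zero1_of_zeroM ((W.zeroM_iff K).2 ?_))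
  have h1 : (p : ℤ) • 𝟙 (K ⊗ 𝟙_ T) = (ρ_ K).hom ≫ ((p : ℤ) • 𝟙 K) ≫ (ρ_ K).inv := by
    rw [Preadditive.zsmul_comp, Preadditive.comp_zsmul, Category.id_comp, Iso.hom_inv_id]
  rw [whiskerLeft_zsmul_id, h1]
  infer_instance

theorem ne_of_zero {K : T} [MonObj K] (hc : (p : ℤ) • η[K] = 0) (hne : η[K] ≠ 0)
    (h1 : K ◁ W.f1 = 0) (h2 : K ◁ W.f2 = 0) :
    ∃ y : (𝟙_ T)⟦(0 : ℤ)⟧ ⟶ K ⊗ W.V2, y ≠ 0 := by
  have h0 : K ◁ ((p : ℤ) • 𝟙 (𝟙_ T)) = 0 := by
    have h1 : (p : ℤ) • 𝟙 (K ⊗ 𝟙_ T) = (ρ_ K).hom ≫ ((p : ℤ) • 𝟙 K) ≫ (ρ_ K).inv := by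
      rw [Preadditive.zsmul_comp, Preadditive.comp_zsmul, Category.id_comp, Iso.hom_inv_id]
    rw [whiskerLeft_zsmul_id, h1, zsmul_id_zero hc, zero_comp, comp_zero]
  have m0 := mono_of_zero W.distM h0
  have m1 := mono_of_zero W.dist1 h1
  have m2 := mono_of_zero W.dist2 h2
  refine ⟨(shiftFunctorZero T ℤ).hom.app _ ≫ η[K] ≫ (ρ_ K).inv ≫ K ◁ W.iM ≫ K ◁ W.j1 ≫ K ◁ W.j2,
    fun hy => hne ?_⟩
  rw [← cancel_epi ((shiftFunctorZero T ℤ).hom.app (𝟙_ T)), comp_zero,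
    ← cancel_mono ((ρ_ K).inv ≫ K ◁ W.iM ≫ K ◁ W.j1 ≫ K ◁ W.j2), zero_comp]
  simpa only [Category.assoc] using hy

end lib

open P251.St (SHCat Susp)
open L

variable {T : SHCat} {S : Susp T} {p : ℕ} [hp : Fact p.Prime] {D : MUData T.C}

theorem unit_ne {R : RingSp T} (h : ¬ Triv R.obj) : η[R.obj] ≠ 0 := fun h0 => h (by
  have h1 := zsmul_id_zero (K := R.obj) (m := 1) (by rw [h0, smul_zero])
  rw [one_smul] at h1
  exact h1)

theorem not_triv {R : RingSp T} (h : η[R.obj] ≠ 0) : ¬ Triv R.obj := fun h0 => h (by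
  have h1 : 𝟙 R.obj = 0 := h0
  rw [← Category.comp_id η[R.obj], h1, comp_zero])

theorem isRational_of {R : RingSp T} (h : Z.IsRational R.obj) : IsRational R where
  conc := h.conc
  ne := not_triv h.ne
  div m hm := by
    obtain ⟨f, hf⟩ := (h.div m hm).2 η[R.obj]
    exact isIso_zsmul f hf
  gen := h.gen

theorem cast_sub_one (n : ℕ) : ((p ^ n - 1 : ℕ) : ℤ) = (p : ℤ) ^ n - 1 := by
  rw [Nat.cast_sub (Nat.one_le_pow _ _ hp.out.one_le)]
  push_cast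
  rfl

theorem isMoravaPos_of (H : MUUniv (M.lineIso S.toSpaceFunctor) D)
    (U : MUFam (M.lineIso S.toSpaceFunctor) D) {n : ℕ} {R : RingSp T}
    (o : Z.Oriented S.toSpaceFunctor R.obj) (hK : Z.IsMoravaPos S.toSpaceFunctor p (n + 1) o) :
    IsMoravaPos S.1 R p n (p ^ (n + 1) - 1) := by
  have hl : P257.St.PLocal p R.obj := pLocal_of_kills (j := 1) hp.out (by
    have h1 := zsmul_id_zero hK.char
    rw [pow_one]
    exact h1)
  obtain ⟨u, hu, Φ, h1, h2, h3⟩ := exists_typ H o hK hl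
  obtain ⟨o', ho⟩ := U.exists_orient (R := R.toOld) u
  obtain ⟨φ, h4, h5⟩ := exists_isPTyp (R := R.toOld) (o := o') hl
    (P257.H80.hom_homog hl h1) ((U.lawS_eq (R := R.toOld) ho).trans h1)
  have h6 := P257.H604.of_hazV (R := R.toOld) hp.out.one_le h5 (n + 1)
  have h7 : IsIso (R.obj ◁ ((spI S hp.out.one_le (n + 1)).inv ≫ P257.St.hazV φ (n + 1)) ≫
      μ[R.obj]) := isIso_of_eq rfl (h6.trans h2) h3
  have h8 : IsIso (R.obj ◁ P257.St.hazV φ (n + 1) ≫ μ[R.obj]) := by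
    rw [MonoidalCategory.whiskerLeft_comp, Category.assoc] at h7
    exact IsIso.of_isIso_comp_left (R.obj ◁ (spI S hp.out.one_le (n + 1)).inv) _
  refine ⟨fun k hk => hK.sparse k (by rwa [← cast_sub_one]), hK.char, not_triv hK.ne, hK.gen,
    Oriented.ofOld o', GMap.ofOld φ, η[R.obj] ≫ inv (R.obj ◁ P257.St.hazV φ (n + 1) ≫ μ[R.obj]),
    IsPTyp.ofOld h4, ?_⟩
  have h9 : GMap.ofOld φ (p ^ (n + 1) - 1) (MvPolynomial.X n) = P257.St.hazV φ (n + 1) :=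
    GMap.ofOld_of φ (P257.St.vEl_mem p (n + 1))
  rw [h9]
  change (η[R.obj] ≫ inv _) ≫ (R.obj ◁ P257.St.hazV φ (n + 1) ≫ μ[R.obj]) = _
  rw [Category.assoc, IsIso.inv_hom_id, Category.comp_id]

/-- **The Morava `K`-theories exist.** -/
theorem exists_family (h2 : p ≠ 2) (H : MUUniv (M.lineIso S.toSpaceFunctor) D)
    (U : MUFam (M.lineIso S.toSpaceFunctor) D) : ∃ K, IsMorava S.1 p K := by
  have := locallySmall_self.{0} T.C
  choose K i1 i2 hK using fun n => X.exists_isMorava S.toSpaceFunctor h2 n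
  refine ⟨fun n => @RingSp.mk T (K n) (i1 n) (i2 n), isRational_of (hK 0), fun n => ?_⟩
  obtain ⟨_, o, ho⟩ := hK (n + 1)
  exact isMoravaPos_of H U o ho

theorem isIso_per {R : RingSp T} {N : ℕ} {v : PiR S.1 R N} {w : 𝟙_ T.C ⟶ R.obj ⊗ Sn S.1 N}
    (h : w ≫ R.obj ◁ v ≫ μ[R.obj] = η[R.obj]) : IsIso (R.obj ◁ v ≫ μ[R.obj]) :=
  St.isIso_actV (St.braiding_SC S.toSpaceFunctor N) w v h

theorem isIso_of_stMap {K V : T.C} {j : ℕ} {f : Sv T.C p j ⊗ V ⟶ V}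
    (h : IsIso (K ◁ stMap S j f)) : IsIso (K ◁ f) := by
  rw [stMap, MonoidalCategory.whiskerLeft_comp] at h
  exact IsIso.of_isIso_comp_left (K ◁ (spI S hp.out.one_le j).hom ▷ V) _

theorem zero_of_stMap {K V : T.C} {j : ℕ} {f : Sv T.C p j ⊗ V ⟶ V}
    (h : K ◁ stMap S j f = 0) : K ◁ f = 0 := by
  rw [stMap, MonoidalCategory.whiskerLeft_comp] at h
  rw [← cancel_epi (K ◁ (spI S hp.out.one_le j).hom ▷ V), h, comp_zero]

theorem van_of_sparse {R : RingSp T} {N k : ℕ} (h : ∀ k : ℤ, ¬ (2 * N : ℤ) ∣ k → Van R.obj k)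
    (h0 : 0 < k) (hk : k < N) (v : PiR S.1 R k) : v = 0 := by
  have h1 := h (2 * k) (fun hd => by
    have h2 := Int.le_of_dvd (by omega) hd
    omega) ((stdSph (T := T.C) k).inv ≫ (isoE S k).inv ≫ v)
  rw [← cancel_epi (isoE S k).inv, ← cancel_epi (stdSph (T := T.C) k).inv, comp_zero, comp_zero]
  exact h1

variable (W : Twr D p) (U : MUFam (M.lineIso S.toSpaceFunctor) D)

include U

theorem zero_one {R : RingSp T} (h : IsMoravaPos S.1 R p 0 (p ^ (0 + 1) - 1)) :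
    IsZero (R.obj ⊗ W.V2) := by
  obtain ⟨o, φ, w, h1, h2⟩ := h.per
  refine W.zero2_of_zero1 ((W.zero1_iff _).2 (isIso_of_stMap (S := S) ?_))
  have h3 : IsIso (R.obj ◁ P257.St.hazV (φ.toOld p h1.add) 1 ≫ μ[R.obj]) := isIso_per h2
  rw [whiskerLeft_self (W.hur_st U h1.toOld).1]
  infer_instance

theorem zero_two {R : RingSp T} (h : IsMoravaPos S.1 R p 1 (p ^ (1 + 1) - 1)) :
    IsZero (R.obj ⊗ W.V2) := by
  obtain ⟨o, φ, w, h1, h2⟩ := h.per
  refine (W.zero2_iff _).2 (isIso_of_stMap (S := S) ?_)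
  have h3 : IsIso (R.obj ◁ P257.St.hazV (φ.toOld p h1.add) 2 ≫ μ[R.obj]) := isIso_per h2
  rw [whiskerLeft_self (W.hur_st U h1.toOld).2]
  infer_instance

theorem ne_three {R : RingSp T} (h : IsMoravaPos S.1 R p 2 (p ^ (2 + 1) - 1)) :
    ¬ ∀ k, Van (R.obj ⊗ W.V2) k := by
  obtain ⟨o, φ, w, h1, -⟩ := h.per
  have h2 : 2 ≤ p := hp.out.two_le
  have h3 : p ^ 1 < p ^ 2 := Nat.pow_lt_pow_right (by omega) (by omega)
  have h4 : p ^ 2 < p ^ (2 + 1) := Nat.pow_lt_pow_right (by omega) (by omega)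
  have h5 : 2 ≤ p ^ 1 := by rwa [pow_one]
  obtain ⟨y, hy⟩ := ne_of_zero W h.char (unit_ne h.ne) (zero_of_stMap (S := S) (by
      rw [whiskerLeft_self (W.hur_st U h1.toOld).1, van_of_sparse h.sparse (by omega) (by omega)
        (P257.St.hazV (φ.toOld p h1.add) 1)]
      simp)) (zero_of_stMap (S := S) (by
      rw [whiskerLeft_self (W.hur_st U h1.toOld).2, van_of_sparse h.sparse (by omega) (by omega)
        (P257.St.hazV (φ.toOld p h1.add) 2)]
      simp))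
  exact fun H => hy (H 0 y)

omit U in
theorem van_of_isZero {Y : T.C} (h : IsZero Y) (k : ℤ) : Van Y k := fun y => h.eq_of_tgt y _

/-- **`V(2)` has type three.** -/
theorem hasType_V2 {K : ℕ → RingSp T} (hK : IsMorava S.1 p K) : HasType K p 3 W.V2 := by
  have h3 := ne_three W U (hK.2 2)
  obtain ⟨j, hj⟩ := killsPow_of_sTow W.st3.tow
  refine ⟨finLoc_of (fun h0 => h3 (van_of_isZero ((tensorLeft (K 3).obj).map_isZero
      ((IsZero.iff_id_eq_zero _).2 h0))))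
    (finPLocal_of_kills hp.out (finSp_of_finCell W.st3.fin) hj), h3, fun i hi => ?_⟩
  by_contra hlt
  have hlt' : i < 3 := by omega
  refine hi (van_of_isZero ?_)
  interval_cases i
  · exact zero_rat W (hK.1.div p (by exact_mod_cast hp.out.ne_zero))
  · exact zero_one W U (hK.2 0)
  · exact zero_two W U (hK.2 1)

end Vale.Agent.P221Y98
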