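import Mathlib
import Vale.Agent.P251.St.Chrom

/-!
# P221, statement layer

Complex orientations, `p`-typical formal group laws, `BP`, Morava `K`-theories, the type of a finite
spectrum, fp-spectra, standard forms of `BP⟨n⟩`, thick subcategories, the conjecture.
-/

open CategoryTheory MonoidalCategory Limits Matrix MvPolynomial

noncomputable section

namespace Vale.Agent.P221Y98.L

open P251.St (SHCat SuspData Space Map Space.pt Pn)
open P251.St.SHCat

/-! ### Thom spaces of the tautological bundles -/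

/-- The space `ℂ^n` (`(ℂ^n)⁺` is the sphere of dimension `2 n`). -/
abbrev Cn (n : ℕ) : Space := ⟨Fin n → ℂ⟩

section

variable (n : ℕ) (A : Type) [Fintype A]

/-- `P` is an orthogonal projection of rank `n` of `ℂ^A`. -/
def IsProj (P : Matrix A A ℂ) : Prop := P * P = P ∧ Pᴴ = P ∧ P.trace = n

/-- The points of the tautological bundle over the Grassmannian of `n`-dimensional subspaces of
`ℂ^A`: pairs `(P, v)` of a projection and a vector in its image. -/
def InTh (x : Matrix A A ℂ × (A → ℂ)) : Prop := IsProj n A x.1 ∧ x.1 *ᵥ x.2 = x.2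

theorem lc_th : LocallyCompactSpace (Subtype (InTh n A)) := P251.St.lc_th n A

theorem lc_cp : LocallyCompactSpace (Subtype (IsProj 1 A)) := P251.St.lc_cp A

/-- The Thom space of the tautological bundle is `(Th n A)⁺`. -/
def Th : Space := @Space.mk (Subtype (InTh n A)) _ (lc_th n A) _

/-- The projective space of `ℂ^A`. -/
def CP : Space := @Space.mk (Subtype (IsProj 1 A)) _ (lc_cp A) _

/-- The square of the projective space. -/
abbrev PP : Space := (CP A).prod (CP A)

variable {n A}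

/-- the pair `(P, v)` of a point of the total space -/
abbrev pv (x : (Th n A).carrier) : Matrix A A ℂ × (A → ℂ) := x.1

/-- the projection `P` of a point of the projective space -/
abbrev mat (x : (CP A).carrier) : Matrix A A ℂ := x.1

/-- `f : X⁺ → (Th n A)⁺` is the map `x ↦ (P x, v x)`. -/
def IsPair {X : Space} (f : Map X (Th n A)) (P : X.carrier → Matrix A A ℂ)
    (v : X.carrier → A → ℂ) : Prop :=
  ∀ x, ∃ y, f.toFun (Space.pt x) = Space.pt y ∧ pv y = (P x, v x)

end

/-- `g : (ℂ^r)⁺ ∧ (ℂ^k)⁺ → (ℂ^{r+k})⁺` is the standard homeomorphism. -/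
def IsAppend {r k : ℕ} (g : Map ((Cn r).prod (Cn k)) (Cn (r + k))) : Prop :=
  ∀ a b, g.toFun (Space.pt (a, b)) = Space.pt (Fin.append a b)

/-! ### Ring spectra and their cohomology -/

variable {T : SHCat} {X Y Z : T.C}

/-- A homotopy commutative ring spectrum. -/
structure RingSp (T : SHCat) where
  /-- the underlying spectrum -/
  obj : T.C
  [mon : MonObj obj]
  [comm : IsCommMonObj obj]

attribute [instance] RingSp.mon RingSp.comm

/-- the multiplication -/
abbrev RingSp.mul (R : RingSp T) : Hom (ten R.obj R.obj) R.obj := MonObj.mul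

/-- the unit -/
abbrev RingSp.unit (R : RingSp T) : Hom T.one R.obj := MonObj.one

/-- the zero morphism -/
abbrev nul (X Y : T.C) : Hom X Y := 0

/-- the multiple `a f` of a morphism by an integer -/
abbrev zmul (a : ℤ) (f : Hom X Y) : Hom X Y := a • f

/-- the sum `w 0 + ⋯ + w (n - 1)` -/
abbrev hsum (n : ℕ) (w : ℕ → Hom X Y) : Hom X Y := (Finset.range n).sum w

/-- the shift `Σ^k X` -/
abbrev shiftBy (k : ℤ) (X : T.C) : T.C := X⟦k⟧

/-- the sum `X ∨ Y` -/
abbrev wedge (X Y : T.C) : T.C := X ⊞ Y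

/-- `π_k X` -/
abbrev Pi (k : ℤ) (X : T.C) : Type := Hom (shiftBy k T.one) X

/-- `π_k X = 0` -/
def Van (X : T.C) (k : ℤ) : Prop := ∀ y : Pi k X, y = nul _ _

/-- `X = 0` -/
def Triv (X : T.C) : Prop := ident X = nul X X

/-- `m` is invertible on `X` -/
def Inv (m : ℤ) (X : T.C) : Prop := IsIso (zmul m (ident X))

/-- the morphism `A ⊗ f` -/
abbrev tenL (A : T.C) (f : Hom X Y) : Hom (ten A X) (ten A Y) := A ◁ f

/-- the morphism `f ⊗ A` -/
abbrev tenR (f : Hom X Y) (A : T.C) : Hom (ten X A) (ten Y A) := f ▷ A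

/-- the interchange `(A ⊗ B) ⊗ (C ⊗ D) ⟶ (A ⊗ C) ⊗ (B ⊗ D)` -/
abbrev exch (A B C D : T.C) : Hom (ten (ten A B) (ten C D)) (ten (ten A C) (ten B D)) :=
  tensorμ A B C D

/-- the associativity `A ⊗ (B ⊗ D) ⟶ (A ⊗ B) ⊗ D` -/
abbrev assocInv (A B D : T.C) : Hom (ten A (ten B D)) (ten (ten A B) D) :=
  Iso.inv (X := ten (ten A B) D) (Y := ten A (ten B D)) (α_ A B D)

/-- the map `(E ⊗ X) ⊗ Y ⟶ E ⊗ Z` induced by `m : X ⊗ Y ⟶ Z` -/
abbrev under (E : T.C) (m : Hom (ten X Y) Z) : Hom (ten (ten E X) Y) (ten E Z) :=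
  comp (assoc E X Y) (tenL E m)

/-- `X` is `p`-local: the integers prime to `p` are invertible on `X`. -/
def PLocal (p : ℕ) (X : T.C) : Prop := ∀ m, ¬ (p : ℤ) ∣ m → Inv m X

/-- `X` is `p`-complete: there are no nonzero maps `W ⟶ X` if `p` is invertible on `W`. -/
def PComplete (p : ℕ) (X : T.C) : Prop := ∀ W, Inv p W → ∀ g, g = nul W X

/-- `l : X ⟶ Y` is the universal map from `X` to an object of the class `P`. -/
def IsRefl (P : T.C → Prop) (l : Hom X Y) : Prop :=
  P Y ∧ ∀ Z, P Z → ∀ f : Hom X Z, ∃! g, comp l g = f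

variable (S : SuspData T) (R : RingSp T)

/-- The sphere of dimension `2 n`. -/
abbrev Sn (n : ℕ) : T.C := S.obj (Cn n)

/-- `R ⊗ S^{2n}` -/
abbrev RS (n : ℕ) : T.C := ten R.obj (Sn S n)

/-- The homotopy group `π_{2n} R`. -/
abbrev PiR (n : ℕ) : Type := Hom (Sn S n) R.obj

/-- The cohomology group `R^{2n}(X⁺)`. -/
abbrev Coh (n : ℕ) (X : Space) : Type := Hom (S.obj X) (RS S R n)

/-- the map `S^{2r} ⊗ S^{2k} ⟶ S^{2(r+k)}` induced by `g` -/
abbrev join {r k : ℕ} (g : Map ((Cn r).prod (Cn k)) (Cn (r + k))) :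
    Hom (ten (Sn S r) (Sn S k)) (Sn S (r + k)) := comp (S.mul _ _) (S.map g)

/-- the map `(R ⊗ X) ⊗ (R ⊗ Y) ⟶ R ⊗ Z` induced by the multiplication and `m : X ⊗ Y ⟶ Z` -/
abbrev cup (m : Hom (ten X Y) Z) : Hom (ten (ten R.obj X) (ten R.obj Y)) (ten R.obj Z) :=
  comp (exch _ _ _ _) (tenHom R.mul m)

/-- the right action `(R ⊗ X) ⊗ R ⟶ R ⊗ (R ⊗ X) ⟶ (R ⊗ R) ⊗ X ⟶ R ⊗ X` -/
abbrev ract (X : T.C) : Hom (ten (ten R.obj X) R.obj) (ten R.obj X) :=
  comp (under _ (symm X _)) (comp (assocInv _ _ X) (tenR R.mul X))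

variable {S R} {R' : RingSp T}

/-- the multiplication `R ⊗ X ⟶ R` by `x : X ⟶ R` -/
abbrev mulBy (x : Hom X R.obj) : Hom (ten R.obj X) R.obj := comp (tenL _ x) R.mul

/-- the pull back of a cohomology class -/
abbrev pb {n : ℕ} {X Y : Space} (f : Map X Y) (u : Coh S R n Y) : Coh S R n X := comp (S.map f) u

variable (S R) in
/-- A complex orientation of the ring spectrum `R`: a family of Thom classes
`θ n A ∈ R^{2n}(Th n A)` of the tautological bundles, compatible with isometries, multiplicative for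
direct sums and normalised on the fibre `ℂ^n`. -/
structure Oriented where
  /-- the Thom classes -/
  θ (n : ℕ) (A : Type) [Fintype A] : Coh S R n (Th n A)
  isom : ∀ {n : ℕ} {A B : Type} [Fintype A] [Fintype B] [DecidableEq A] (u : Matrix B A ℂ)
    (f : Map (Th n A) (Th n B)), uᴴ * u = 1 →
    IsPair f (fun x => u * (pv x).1 * uᴴ) (fun x => u *ᵥ (pv x).2) → pb f (θ n B) = θ n A
  sum : ∀ {n m : ℕ} {A B : Type} [Fintype A] [Fintype B]
    (f : Map ((Th n A).prod (Th m B)) (Th (n + m) (A ⊕ B))) g,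
    IsPair f (fun x => fromBlocks (pv x.1).1 0 0 (pv x.2).1)
      (fun x => Sum.elim (pv x.1).2 (pv x.2).2) → IsAppend g →
    CommSq (S.mul _ _) (tenHom (θ n A) (θ m B)) (pb f (θ _ _)) (cup R (join S g))
  fibre : ∀ n (f : Map (Cn n) (Th n (Fin n))), IsPair f (fun _ => 1) (fun x => x) →
    comp (leftUnit _) (pb f (θ n _)) = tenR R.unit _

/-- `w = c u` in `R^{2r}(Y)`, where `c ∈ π_{2k} R` and `u ∈ R^{2(r+k)}(Y)`. (Both sides are
compared after the suspension by `ℂ^k`.) -/
def IsScale {r k : ℕ} {Y : Space} (c : PiR S R k) (u : Coh S R (r + k) Y) (w : Coh S R r Y) :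
    Prop :=
  ∀ g, IsAppend g → CommSq (tenR w _) (tenHom u c) (under _ (join S g)) (ract R _)

/-! ### `p`-typical orientations -/

/-- The equation `F(x, y) = ∑ a k i x ^ i y ^ (k + 1 - i)` (`k < 2 N`) on the square of the
projective space of `ℂ^A`: `t` is the zero section of the tensor product `L ⊗ L'` of the two
tautological line bundles, so that the pull back of the Thom class along `t` is `F(x, y)`, and
`e k i` is the zero section of the sum of `i` copies of `L` and `k + 1 - i` copies of `L'`, so that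
the pull back of the Thom class along `e k i` is `x ^ i y ^ (k + 1 - i)`. -/
def LawOn (o : Oriented S R) (a : ∀ k : ℕ, ℕ → PiR S R k) (N : ℕ) (A : Type) [Fintype A] : Prop :=
  ∀ (t : Map (PP A) (Th 1 (A × A))) (e : ∀ k : ℕ, ℕ → Map (PP A) (Th (1 + k) (Fin (1 + k) × A))),
    IsPair t (fun x i j => mat x.1 i.1 j.1 * mat x.2 i.2 j.2) (fun _ _ => 0) →
    (∀ k i, IsPair (e k i) (fun x b c =>
      if b.1 = c.1 then mat (if b.1.1 < i then x.1 else x.2) b.2 c.2 else 0) fun _ _ => 0) →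
    ∃ w : ℕ → ℕ → _, (∀ k < 2 * N, ∀ i < k + 2, IsScale (a k i) (pb (e k i) (o.θ _ _)) (w k i)) ∧
      pb t (o.θ _ _) = hsum (2 * N) fun k => hsum (k + 2) (w k)

/-- `F` is Hazewinkel's formal group law over `ℤ[v_1, v_2, …]`, where `v_{i+1}` is the variable
`X i`: `L F(x, y) = L x + L y` over `ℚ[v_1, v_2, …]` for Hazewinkel's logarithm
`L x = ∑ l_n x ^ (p ^ n)`, `l_0 = 1`, `p l_n = ∑_{i < n} l_i v_{n-i} ^ (p ^ i)`. -/
def IsHaz (p : ℕ) (F : MvPowerSeries (Fin 2) (MvPolynomial ℕ ℤ)) : Prop :=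
  F.constantCoeff = 0 ∧ ∃ (l : ℕ → MvPolynomial ℕ ℚ) (L : PowerSeries (MvPolynomial ℕ ℚ)), l 0 = 1 ∧
    (∀ n, p * l (n + 1) = ∑ i ∈ Finset.range (n + 1), l i * MvPolynomial.X (n - i) ^ p ^ i) ∧
    (L = .mk fun m => if m = p ^ p.log m then l (p.log m) else 0) ∧
    L.subst (F.map (map (Int.castRingHom ℚ))) =
      L.subst (.X 0 : MvPowerSeries _ (MvPolynomial ℕ ℚ)) +
        L.subst (.X 1 : MvPowerSeries _ (MvPolynomial ℕ ℚ))

/-- `x ∈ ℤ[v_1, v_2, …]` is homogeneous of degree `2 n`, where `|v_i| = 2 (p^i - 1)`. -/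
def Hg (p n : ℕ) (x : MvPolynomial ℕ ℤ) : Prop :=
  x.IsWeightedHomogeneous (fun i => p ^ (i + 1) - 1) n

variable (S R) in
/-- Families of maps `ℤ[v_1, v_2, …] → π_{2n} R` (used on the elements of degree `2 n`). -/
abbrev GMap : Type := ∀ n, MvPolynomial ℕ ℤ → PiR S R n

variable {p : ℕ}

/-- `R` is `p`-local and the complex orientation `o` of `R` is `p`-typical: its formal group law
(on the square of each projective space) is the image of Hazewinkel's formal group law under a
homomorphism of graded rings `φ : ℤ[v_1, v_2, …] → π_* R`, `|v_i| = 2 (p ^ i - 1)`. -/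
structure IsPTyp (p : ℕ) (o : Oriented S R) (φ : GMap S R) : Prop where
  isLocal : PLocal p R.obj
  add : ∀ n m (x : ℕ → _), φ n (∑ i ∈ Finset.range m, x i) = hsum m fun i => φ n (x i)
  one : ∀ j : Map Pn (Cn 0), j.toFun (Space.pt ()) = Space.pt (fun _ => 0) →
    comp S.unit (comp (S.map j) (φ 0 1)) = R.unit
  mul : ∀ n m x y g, Hg p n x → Hg p m y → IsAppend g →
    CommSq (join S g) (tenHom (φ n x) (φ m y)) (φ _ (x * y)) R.mul
  law : ∃ F, IsHaz p F ∧ ∀ N, LawOn o
    (fun k i => φ k (F.coeff (.single 0 i + .single 1 (k + 1 - i)))) N (Fin (N + 1))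

/-! ### Morava `K`-theories -/

/-- `R` is the rational Eilenberg-Mac Lane spectrum: `π_* R = ℚ` in degree `0`. -/
structure IsRational (R : RingSp T) : Prop where
  conc : ∀ k ≠ 0, Van R.obj k
  ne : ¬ Triv R.obj
  div : ∀ m ≠ 0, Inv m R.obj
  gen : ∀ f, ∃ a m, m ≠ 0 ∧ zmul m f = zmul a R.unit

/-- `R` is a Morava `K`-theory of height `n + 1`, with `N = p ^ (n + 1) - 1`: `π_k R = 0` unless
`2 N` divides `k`, `π_0 R = 𝔽_p`, and `v_{n+1} ∈ π_{2N} R` is invertible (with inverse `w`) for some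
`p`-typical complex orientation. -/
structure IsMoravaPos (S : SuspData T) (R : RingSp T) (p n N : ℕ) : Prop where
  sparse : ∀ k : ℤ, ¬ (2 * N : ℤ) ∣ k → Van R.obj k
  char : zmul p R.unit = nul _ _
  ne : ¬ Triv R.obj
  gen : ∀ f, ∃ a, f = zmul a R.unit
  per : ∃ (o : Oriented S R) (φ : _) (w : _), IsPTyp p o φ ∧
    comp w (mulBy (φ N (MvPolynomial.X n))) = R.unit

/-- `K 0 = Hℚ`, and `K (n + 1)` is a Morava `K`-theory of height `n + 1` at `p`. -/
def IsMorava (S : SuspData T) (p : ℕ) (K : ℕ → RingSp T) : Prop :=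
  IsRational (K 0) ∧ ∀ n, IsMoravaPos S (K (n + 1)) p n (p ^ (n + 1) - 1)

/-! ### Finite `p`-local spectra, their type, fp-spectra -/

/-- Finite CW spectra: the objects which are obtained from `0` by attaching finitely many cells
(of arbitrary integer dimensions), `S^k ⟶ X ⟶ Y ⟶ S^{k+1}`. -/
inductive FinSp : T.C → Prop
  | zero {A} : Triv A → FinSp A
  | cell {A B k} {f : Pi k A} {g : Hom A B} {h} : Dist f g h → FinSp A → FinSp B

/-- A nonzero finite `p`-local spectrum: a nonzero retract of the `p`-localization of a finite CW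
spectrum. -/
def FinLoc (p : ℕ) (V : T.C) : Prop :=
  ¬ Triv V ∧ ∃ (F Y : T.C) (l : Hom F Y) (i : Hom V Y) (r : _),
    FinSp F ∧ IsRefl (PLocal p) l ∧ comp i r = ident V

/-- `V` is a nonzero finite `p`-local spectrum of type `j`: `j` is least with `K(j)_* V ≠ 0`. -/
def HasType (K : ℕ → RingSp T) (p j : ℕ) (V : T.C) : Prop :=
  FinLoc p V ∧ IsLeast {i | ¬ ∀ k, Van (ten (K i).obj V) k} j

/-- `π_* Y` is finite in total: finitely many nonzero homotopy groups, each finite. -/
def FinTotal (Y : T.C) : Prop := {k | ¬ Van Y k}.Finite ∧ ∀ k, Finite (Pi k Y)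

/-- `X` is an fp-spectrum: bounded below, `p`-complete, and `π_* (V ∧ X)` is finite in total for
some nonzero finite `p`-local spectrum `V`. -/
def IsFp (p : ℕ) (X : T.C) : Prop :=
  (∃ N, ∀ k < N, Van X k) ∧ PComplete p X ∧ ∃ V, FinLoc p V ∧ FinTotal (ten V X)

/-- `X` is fp of fp-type at most `n`: `π_* (V ∧ X)` is finite in total for some finite spectrum `V`
of type `n + 1`. -/
def FpType (K : ℕ → RingSp T) (p n : ℕ) (X : T.C) : Prop :=
  IsFp p X ∧ ∃ V, HasType K p (n + 1) V ∧ FinTotal (ten V X)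

/-! ### `BP` and the standard forms of `BP⟨n⟩` -/

/-- `f` is a homomorphism of ring spectra which carries the orientation `o` to `o'`. -/
def OrMap (o : Oriented S R) (o' : Oriented S R') (f : Hom R.obj R'.obj) : Prop :=
  comp R.unit f = R'.unit ∧ CommSq R.mul (tenHom f f) f R'.mul ∧
    ∀ n (A : Type) [Fintype A], comp (o.θ n A) (tenR f _) = o'.θ n A

/-- `R`, with the complex orientation `o` and the homomorphism `φ : ℤ[v_1, v_2, …] → π_* R`, is the
Brown-Peterson spectrum at `p`: the initial `p`-local commutative ring spectrum with a `p`-typical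
complex orientation. The elements `φ v_i` are the Hazewinkel generators. -/
def IsBP (p : ℕ) (o : Oriented S R) (φ : GMap S R) : Prop :=
  IsPTyp p o φ ∧ ∀ R' (o' : Oriented S R') φ', IsPTyp p o' φ' → ∃! f, OrMap o o' f

/-- `y` is a fraction `φ x / m`, where `x` is homogeneous with the property `Q`, `m` prime to `p` -/
def Frac (p : ℕ) (φ : GMap S R) (Q : MvPolynomial ℕ ℤ → Prop) {k : ℕ} (y : PiR S R k) : Prop :=
  ∃ m x, ¬ (p : ℤ) ∣ m ∧ Hg p k x ∧ Q x ∧ zmul m y = φ k x

/-- `φ` identifies `π_* R` with `ℤ_(p)[v_1, v_2, …]`: the homotopy groups vanish in odd and in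
negative degrees, `φ` is injective, and onto up to factors prime to `p`. -/
def PolyCoef (p : ℕ) (φ : GMap S R) : Prop :=
  (∀ k, Odd k ∨ k < 0 → Van R.obj k) ∧ ∀ k, (∀ x, Hg p k x → φ k x = nul _ _ → x = 0) ∧
    ∀ y : PiR S R k, Frac p φ (fun _ => True) y

/-- `q : R ⟶ X` is the quotient of `R` by `x_{n+1}, x_{n+2}, …`, as a homotopy `R`-module with
action `a`: `q` is `R`-linear and onto on homotopy, and the kernel of `π_* q` consists of the finite
sums of products `b_j x_j`, `j > n`. -/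
structure IsQuotient (n : ℕ) {d : ℕ → T.C} (x : ∀ j, Hom (d j) R.obj) (a : Hom (ten R.obj X) X)
    (q : Hom R.obj X) : Prop where
  unit : comp (tenR R.unit X) a = leftUnit X
  assoc : CommSq (tenR R.mul X) (under _ a) a a
  map : CommSq R.mul (tenL _ q) q a
  surj : ∀ k (y : Pi k X), ∃ u, comp u q = y
  ker : ∀ k (u : Pi k _), comp u q = nul _ X ↔ ∃ (N : ℕ) (b : ∀ j, Pi k (ten _ (d j))),
    (∀ j ≤ n, b j = nul _ _) ∧ u = hsum N fun j => comp (b j) (mulBy (x j))

/-- `B` is a standard form of `BP⟨n⟩_p`: the `p`-completion of the quotient of the Brown-Peterson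
spectrum by polynomial generators `x_j` of degree `2(p^j-1)`, `j > n`: up to a factor prime to `p`,
`x_j` is a polynomial in which the coefficient of `v_j` is prime to `p`. -/
def IsStd (S : SuspData T) (p n : ℕ) (B : T.C) : Prop :=
  ∃ (P : RingSp T) (o : Oriented S P) (φ : _) (x : ∀ j, PiR S P (p ^ j - 1)) (C : T.C)
    (a : _) (q : Hom P.obj C) (c : Hom C B), IsBP p o φ ∧
      (∀ j > n, Frac p φ (fun w => ¬ (p : ℤ) ∣ w.coeff (.single (j - 1) 1)) (x j)) ∧
      IsQuotient n x a q ∧ IsRefl (PComplete p) c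

/-! ### Thick subcategories and the conjecture -/

/-- `Q` is a class of `p`-complete spectra which is closed under equivalences, finite sums, all
integer shifts, cofiber sequences (two out of three) and retracts. -/
structure IsThick (p : ℕ) (Q : T.C → Prop) : Prop where
  complete : ∀ X, Q X → PComplete p X
  equiv : ∀ X Y (f : Hom X Y), IsIso f → Q X → Q Y
  zero : ∀ X, Triv X → Q X
  sum : ∀ X Y, Q X → Q Y → Q (wedge X Y)
  shift : ∀ k X, Q X → Q (shiftBy k X)
  cof : ∀ X Y Z (f : Hom X Y) (g : Hom Y Z) h, Dist f g h →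
    (Q X → Q Y → Q Z) ∧ (Q X → Q Z → Q Y) ∧ (Q Y → Q Z → Q X)
  retract : ∀ X Y (i : Hom X Y) r, comp i r = ident X → Q Y → Q X

/-- `X` lies in `Thick(B)`, the smallest such class which contains `B`. -/
def Thick (p : ℕ) (B X : T.C) : Prop := ∀ Q, IsThick p Q → Q B → Q X

/-- The Hahn-Wilson conjecture: for every prime `p` (with its Morava `K`-theories), every `n ≥ 0`
and every standard form `B` of `BP⟨n⟩_p`, the fp-spectra of fp-type at most `n` are the objects of
`Thick(B)`. -/
def HahnWilson (S : SuspData T) : Prop :=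
  ∀ p : ℕ, p.Prime → ∀ K, IsMorava S p K → ∀ n B, IsStd S p n B →
    ∀ X, FpType K p n X ↔ Thick p B X

end Vale.Agent.P221Y98.L
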